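import Vale.Agent.P057DP.Plan
import Vale.Agent.P057HU.Gau

/-!
Forms that are nearly integral on a linear fibre: bias, and two witnesses.
-/

set_option linter.all false

open Matrix Finset Real
open Vale.Agent.P267.H775 Vale.Agent.P057G Vale.Agent.P057MA Vale.Agent.P057PC Vale.Agent.P057DP

namespace Vale.Agent.P057NL

noncomputable section

variable {V ι : Type} [Fintype ι] [DecidableEq ι] {S S' : MS V ι} {r : Finset ι}

theorem lin_put (r : Finset ι) : IsLinearMap ℝ fun u : r → ℝ => put r u (0 : ι → ℝ) := by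
  refine ⟨fun u v => funext fun i => ?_, fun c u => funext fun i => ?_⟩ <;>
    by_cases h : i ∈ r <;> simp [put, h]

theorem mix_put (x y : ι → ℝ) : mix r (put r (fun i : r => x i) 0) y = mix r x y :=
  funext fun i => by by_cases h : i ∈ r <;> simp [mix, put, h]

theorem put_eq (u : r → ℝ) (y : ι → ℝ) : put r u y = mix r (put r u 0) y :=
  funext fun i => by by_cases h : i ∈ r <;> simp [mix, put, h]

/-- a linear function on a fibre is a scalar product -/
theorem exists_dot {f : (ι → ℝ) → ℝ} {y : ι → ℝ} (h : IsLinearMap ℝ fun x => f (mix r x y)) :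
    ∃ ξ : r → ℝ, ∀ x, f (mix r x y) = ξ ⬝ᵥ fun i : r => x i := by
  let φ := (h.mk' _).comp ((lin_put r).mk' _)
  refine ⟨fun i => φ (Pi.single i 1), fun x => ?_⟩
  rw [← mix_put x y]
  refine (LinearMap.pi_apply_eq_sum_univ φ fun i : r => x i).trans (sum_congr rfl fun i _ => ?_)
  rw [smul_eq_mul, mul_comm]
  congr 2
  funext j
  simp [Pi.single_apply, eq_comm]

/-- the unipotent matrix of a linear fibre -/
theorem exists_uni (h : Tr S) {y : ι → ℝ} (hl : LinAt S r y) : ∃ L : Matrix r r ℝ,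
    Uni (fun i : r => S.lv i) L ∧
      ∀ x : ι → ℝ, L *ᵥ (fun i : r => x i) = fun i : r => x i - S.p (mix r x y) i := by
  let φ : (r → ℝ) →ₗ[ℝ] r → ℝ :=
    LinearMap.pi fun i => ((hl i i.2).mk' _).comp ((lin_put r).mk' _)
  refine ⟨1 - LinearMap.toMatrix' φ, fun i j hij => ?_, fun x => ?_⟩
  · rw [Matrix.sub_apply, LinearMap.toMatrix'_apply, sub_eq_self]
    refine Eq.trans (h.tri i _ (mix r 0 y) fun k hk => ?_) (hl i i.2).map_zero
    by_cases e : k ∈ r
    · rw [mix_pos _ _ e, mix_pos _ _ e]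
      exact (put_pos _ _ e).trans
        (Pi.single_eq_of_ne (fun a : (⟨k, e⟩ : r) = j => hij (a ▸ hk)) _)
    · rw [mix_neg _ _ e, mix_neg _ _ e]
  · rw [sub_mulVec, one_mulVec, ← Matrix.toLin'_apply, Matrix.toLin'_toMatrix', ← mix_put x y]
    rfl

variable {L : Matrix r r ℝ} {y : ι → ℤ}

theorem pos_fp (hL : ∀ x : ι → ℝ, L *ᵥ (fun i : r => x i) =
    fun i : r => x i - S.p (mix r x (toR y)) i) (x : r → ℤ) : toR x - fp S r y x = L *ᵥ toR x := by
  have := hL (put r (toR x) 0)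
  simp only [put_coe] at this
  rw [this]
  funext i
  rw [Pi.sub_apply, fp, toR_put, put_eq]

theorem ln2_eq {y : ι → ℝ} (hL : ∀ x : ι → ℝ, L *ᵥ (fun i : r => x i) =
    fun i : r => x i - S.p (mix r x y) i) (x : ι → ℝ) :
    ln2 S r (mix r x y) = qq (Lᵀ * blk S.G r * L) fun i : r => x i := by
  rw [qq_conj, hL, ln2, qq_msk]
  congr 1
  funext i
  rw [Pi.sub_apply, mix_pos _ _ i.2]

theorem fm_eq (h : Tr S) {lv : r → ℕ} (u : Uni lv L) (hL : ∀ x : ι → ℝ,
    L *ᵥ (fun i : r => x i) = fun i : r => x i - S.p (mix r x (toR y)) i) :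
    P057DP.fm S r y = th (Lᵀ * blk S.G r * L)⁻¹ 0 := by
  rw [← ms_zero (u.posDef (posDef_blk h.pd r))]
  refine tsum_congr fun x => ?_
  rw [pos_fp hL, ng, ng, vol_conj u.det, gs, gs, qq_conj]
  simp

theorem bias : BIAS := by
  intro V ι _ _ S S' r y c Θ δ hG h hp hl h8 hm hΘ hδ hb
  obtain ⟨L, u, hL⟩ := exists_uni h hl
  obtain ⟨ξ, hξ⟩ := exists_dot hΘ
  have p1 := u.posDef (posDef_blk hG r)
  have p2 := u.posDef (posDef_blk h.pd r)
  have m1 : ∀ v, qq ((8 : ℝ) • (Lᵀ * blk S.G r * L)) v ≤ qq (Lᵀ * blk S'.G r * L) v := fun v => by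
    rw [qq_smul_mat, qq_conj, qq_conj]
    exact h8 _
  rw [fm_eq h u hL] at hm
  have e : L *ᵥ (L⁻¹ *ᵥ fun i : r => c i) = fun i : r => c i := by
    rw [mulVec_mulVec, mul_nonsing_inv _ (by simp [u.det]), one_mulVec]
  obtain ⟨k, hk⟩ := P057HU.near_of_bias p1 ((th_inv_mono (p1.smul (by norm_num)) p2 m1 0).trans hm)
    (L⁻¹ *ᵥ fun i : r => c i) ξ hδ (by
      rw [vol_conj u.det, ← le_div_iff₀ (vol_pos (posDef_blk hG r))]
      refine hb.trans_eq ?_
      rw [← Real.norm_of_nonneg (vol_pos (posDef_blk hG r)).le, ← Complex.norm_real, ← norm_div,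
        ← tsum_div_const]
      refine congrArg _ (tsum_congr fun x => ?_)
      have e1 : toR x - fp S r y x = L *ᵥ (toR x - L⁻¹ *ᵥ fun i : r => c i) := by
        rw [mulVec_sub, e, ← pos_fp hL]
        funext i
        simp only [Pi.sub_apply, fp, toR_put, put_eq (toR x) (toR y), hp _ i i.2]
        ring
      beta_reduce
      rw [e1, toR_put, put_eq, hξ, ng, gs, gs, qq_conj]
      simp only [put_coe]
      push_cast
      ring)
  refine ⟨put r k 0, fun x => ?_⟩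
  rw [hξ, ln2_eq hL, ← sum_coe_sort r, ← sqrt_mul' _ (qq_nonneg p2.posSemidef _)]
  simp only [put_coe]
  refine Real.abs_le_sqrt ?_
  have a1 := dot_sq_le p1 (fun i : r => x i) (toR k - ξ)
  have a2 := m1 fun i : r => x i
  rw [qq_smul_mat] at a2
  have a3 := qq_nonneg p1.posSemidef fun i : r => x i
  have a4 := qq_nonneg p1.inv.posSemidef (toR k - ξ)
  have a5 : ((fun i : r => x i) ⬝ᵥ (toR k - ξ)) ^ 2 =
      ((ξ ⬝ᵥ fun i : r => x i) - ∑ i : r, (k i : ℝ) * x i) ^ 2 := by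
    rw [dotProduct_comm, sub_dotProduct, ← neg_sq, neg_sub]
    rfl
  rw [← a5]
  refine a1.trans ?_
  rw [mul_comm]
  exact mul_le_mul (by nlinarith [pi_gt_three]) (by linarith) a3 (by nlinarith [pi_gt_three])

/-- on a fine lattice there is no short dual vector -/
theorem eq_zero_of_short {n : Type} [Fintype n] [DecidableEq n] {H : Matrix n n ℝ} (hH : H.PosDef)
    (h2 : th H⁻¹ 0 ≤ 2) {k : n → ℤ} (hk : ∀ x, 9 * (toR k ⬝ᵥ x) ^ 2 ≤ qq H x) : k = 0 := by
  by_contra h0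
  have a1 := hk (H⁻¹ *ᵥ toR k)
  rw [qq_inv hH] at a1
  have a2 : qq H⁻¹ (toR k) ≤ 1 / 9 := by
    change 9 * qq H⁻¹ (toR k) ^ 2 ≤ _ at a1
    nlinarith
  have a3 : (1 : ℝ) / 2 < gs H⁻¹ (toR k) := by
    refine lt_of_lt_of_le ?_ (add_one_le_exp _)
    nlinarith [pi_lt_four, qq_nonneg hH.inv.posSemidef (toR k)]
  have n1 : k ≠ -k := fun a => h0 (funext fun i => by have := congrFun a i; simp at this ⊢; omega)
  have a4 := (summable_gs hH.inv 0).sum_le_tsum {0, k, -k} fun _ _ => (gs_pos _ _).le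
  rw [sum_insert (by simp [h0, Ne.symm h0]), sum_pair n1] at a4
  have e1 : toR (0 : n → ℤ) = 0 := funext fun _ => Int.cast_zero
  have e2 : toR (-k) = -toR k := funext fun _ => Int.cast_neg _
  simp only [sub_zero, e1, e2, gs_zero, gs_neg] at a4
  unfold th at h2
  simp only [sub_zero] at h2
  linarith

theorem exists_fix (lv : ι → ℕ) (F : (ι → ℝ) → ι → ℝ)
    (h : ∀ a y y', (∀ b, lv b < lv a → y b = y' b) → F y a = F y' a) : ∃ y, ∀ a, y a = F y a := by
  let G : ∀ a, (∀ b, lv b < lv a → ℝ) → ℝ := fun a ih =>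
    F (fun b => if h : lv b < lv a then ih b h else 0) a
  exact ⟨(measure lv).wf.fix G, fun a => ((measure lv).wf.fix_eq G a).trans
    (h a _ _ fun b hb => dif_pos hb)⟩

theorem sum_sub_ite {q : Finset ι} (hq : q ⊆ r) (k : ι → ℤ) (x : ι → ℝ) :
    ∑ i : r, ((if i.1 ∈ q then k i else 0 : ℤ) : ℝ) * x i = ∑ i ∈ q, k i * x i := by
  rw [sum_coe_sort r fun i => ((if i ∈ q then k i else 0 : ℤ) : ℝ) * x i, ← sum_subset hq
    fun i _ h => by simp [h]]
  exact sum_congr rfl fun i h => by rw [if_pos h]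

theorem ln2_le (hG : S.G.PosDef) {q : Finset ι} (hq : Sat S.G q) (hr : q ⊆ r) (x y : ι → ℝ)
    (h : ∀ i ∈ q, ∀ z z', (∀ j ∉ r \ q, z j = z' j) → S.p z i = S.p z' i) :
    ln2 S q (mix q x y) ≤ ln2 S r (mix r x y) := by
  refine le_trans (le_of_eq (congrArg (qq S.G) (msk_congr fun i hi => ?_))) (qq_msk_le hG hq hr _)
  rw [Pi.sub_apply, Pi.sub_apply, mix_pos _ _ hi, mix_pos _ _ (hr hi), h i hi _ (mix r x y)]
  intro j hj
  by_cases e : j ∈ q
  · rw [mix_pos _ _ e, mix_pos _ _ (hr e)]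
  · rw [mix_neg _ _ e, mix_neg _ _ fun a => hj (mem_sdiff.2 ⟨a, e⟩)]

theorem sat_union {G : Matrix ι ι ℝ} {q : Finset ι} (hq : Sat G q) (hr : Sat G r) :
    Sat G (q ∪ r) := fun i j hi hj => (mem_union.1 hi).elim
  (fun a => hq i j a fun b => hj (mem_union_left _ b)) fun a =>
    hr i j a fun b => hj (mem_union_right _ b)

theorem two : TWO := by
  intro V ι _ _ S S' r0 r1 r2 y Θ K h h' hp d1 d2 d3 s0 s1 s2 i1 i2 hΘ hl hK hG hm ⟨k1, n1⟩ ⟨k2, n2⟩
  obtain ⟨L, u, hL⟩ := exists_uni h hl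
  rw [fm_eq h' u (hp ▸ hL)] at hm
  have u1 : r0 ∪ r1 ⊆ r0 ∪ r1 ∪ r2 := subset_union_left
  have u2 : r0 ∪ r2 ⊆ r0 ∪ r1 ∪ r2 := union_subset_union subset_union_left Subset.rfl
  have t : ∀ {q : Finset ι} {x x' : ι → ℝ}, q ⊆ r1 ∪ r2 → (∀ i ∈ r0, x' i = x i) →
      Θ (mix (r0 ∪ q) x' (toR y)) = Θ (mix r0 x (toR y)) := fun hq e => hΘ _ _ fun j hj => by
    by_cases a : j ∈ r0
    · rw [mix_pos _ _ a, mix_pos _ _ (mem_union_left _ a), e j a]
    · rw [mix_neg _ _ a, mix_neg _ _ fun b => (mem_union.1 b).elim a fun c => hj (hq c)]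
  have k0 := eq_zero_of_short (u.posDef (posDef_blk h'.pd _)) hm
    (k := fun i => (if i.1 ∈ r0 ∪ r1 then k1 i else 0) - if i.1 ∈ r0 ∪ r2 then k2 i else 0) fun v => by
    have a1 := (n1 (put _ v 0)).trans (mul_le_mul_of_nonneg_left (sqrt_le_sqrt (ln2_le h.pd
      (sat_union s0 s1) u1 _ _ fun i hi z z' e => i1 i hi z z' fun j hj => e j fun a => by
        simp only [mem_sdiff, mem_union] at a; tauto)) hK)
    have a2 := (n2 (put _ v 0)).trans (mul_le_mul_of_nonneg_left (sqrt_le_sqrt (ln2_le h.pd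
      (sat_union s0 s2) u2 _ _ fun i hi z z' e => i2 i hi z z' fun j hj => e j fun a => by
        simp only [mem_sdiff, mem_union] at a; tauto)) hK)
    rw [t subset_union_left fun _ _ => rfl, ← sum_sub_ite u1] at a1
    rw [t subset_union_right fun _ _ => rfl, ← sum_sub_ite u2] at a2
    rw [ln2_eq hL] at a1 a2
    simp only [put_coe] at a1 a2
    have a3 := hG (L *ᵥ v)
    rw [← qq_conj, ← qq_conj] at a3
    have a4 := sq_sqrt (qq_nonneg (u.posDef (posDef_blk h.pd _)).posSemidef v)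
    simp only [dotProduct, toR_apply, Int.cast_sub, sub_mul, sum_sub_distrib]
    refine le_trans ?_ a3
    rw [← a4]
    have a5 := abs_le.1 a1
    have a6 := abs_le.1 a2
    nlinarith
  have z1 : ∀ i ∈ r1, k1 i = 0 := fun i hi => by
    have := congrFun k0 ⟨i, u1 (mem_union_right _ hi)⟩
    rwa [if_pos (mem_union_right _ hi), if_neg (fun a => (mem_union.1 a).elim
      (fun b => disjoint_left.1 d1 b hi) (disjoint_left.1 d3 hi)), sub_zero] at this
  refine ⟨k1, fun x => ?_⟩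
  obtain ⟨w, hw⟩ := exists_fix S.lv
    (fun w a => if a ∈ r1 then S.p (mix (r0 ∪ r1) w (toR y)) a else x a) fun a w w' e => by
    rw [h.tri a _ (mix (r0 ∪ r1) w' (toR y)) fun j hj => by unfold mix; rw [e j hj]]
  have w0 : ∀ i ∈ r0, w i = x i := fun i hi => (hw i).trans (if_neg (disjoint_left.1 d1 hi))
  have a1 := n1 w
  rw [t subset_union_left w0, sum_union d1, sum_eq_zero (s := r1) fun i hi => by simp [z1 i hi],
    add_zero, sum_congr rfl fun i hi => by rw [w0 i hi]] at a1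
  refine a1.trans_eq (congrArg (fun u => K * √(qq S.G u)) (funext fun i => ?_))
  by_cases a : i ∈ r0
  · rw [msk_pos _ a, msk_pos _ (mem_union_left _ a), Pi.sub_apply, Pi.sub_apply, mix_pos _ _ a,
      mix_pos _ _ (mem_union_left _ a), w0 i a, i2 i (mem_union_left _ a) _ (mix r0 x (toR y))]
    intro j hj
    by_cases b : j ∈ r0
    · rw [mix_pos _ _ b, mix_pos _ _ (mem_union_left _ b), w0 j b]
    · rw [mix_neg _ _ b, mix_neg _ _ fun c => (mem_union.1 c).elim b hj]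
  rw [msk_neg _ a]
  by_cases b : i ∈ r1
  · rw [msk_pos _ (mem_union_right _ b), Pi.sub_apply, mix_pos _ _ (mem_union_right _ b), hw i,
      if_pos b, sub_self]
  · exact msk_neg _ fun c => (mem_union.1 c).elim a b

end

end Vale.Agent.P057NL
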