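import Vale.Agent.P057PO.Dl
import Vale.Agent.P057DP.Flp
import Vale.Agent.P057NL.Nlb

/-!
Cauchy-Schwarz for densities; removal of vertices from relations by two witnesses.
-/

set_option linter.all false

open Matrix Finset Real
open Vale.Agent.P267.H775 Vale.Agent.P057G Vale.Agent.P057MA Vale.Agent.P057PC
open Vale.Agent.P057TP hiding ind
open Vale.Agent.P057GH
open Vale.Agent.P057DP hiding fl
open Vale.Agent.P057T1 (ind ind_pos ind_neg ind_nonneg ind_le abs_ind ind_mono)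
open Vale.Agent.P057EN (Cq cq_iff qq_blk_mono qq_blk_const)
open Vale.Agent.P057PO (fl fl_inj cp_inj fl_cp cp_off cp_ne dl1)

namespace Vale.Agent.P057NL

noncomputable section

variable {C W X : Type} {T : Tow} {cl : W → C} {m s n : ℕ} {N L η ω K : ℝ} [Fintype X]
  [DecidableEq X] [Fintype W] [DecidableEq W] {O : Ov W X} {Z : Sys T W Unit} {σ : X → ℝ}
  {P D : X → Prop} {b : C}

/-- the image of the vertices in `P` -/
def Pi (P D : X → Prop) (i : Bool) (x : X × Bool) : Prop := ∃ y, P y ∧ cp D i y = x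

theorem pi_ff {x : X × Bool} : Pi P D false x ↔ P x.1 ∧ x.2 = false :=
  ⟨fun ⟨y, a, e⟩ => e ▸ ⟨a, ite_self _⟩, fun a => ⟨x.1, a.1, Prod.ext rfl ((ite_self _).trans a.2.symm)⟩⟩

theorem pi_fl {x : X × Bool} : Pi P D false (fl D x) ↔ Pi P D true x := by
  refine ⟨fun ⟨y, a, e⟩ => ⟨y, a, fl_inj (D := D) ?_⟩, fun ⟨y, a, e⟩ => ⟨y, a, ?_⟩⟩
  · rw [← e]; unfold fl P057DP.cp; split_ifs <;> simp
  · rw [← e]; unfold fl P057DP.cp; split_ifs <;> simp

theorem pi_p2 {i : Bool} {x : X × Bool} : Pi P D i x → P2 P D x := by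
  rintro ⟨y, a, rfl⟩
  exact ⟨a, (em (D y)).symm.imp_left fun k => if_neg k⟩

theorem pi_both {x : X × Bool} (a : Pi P D false x) (a' : Pi P D true x) :
    Pi (fun x => P x ∧ ¬ D x) D false x := by
  obtain ⟨y, k, e⟩ := a
  obtain ⟨y', -, e'⟩ := a'
  refine ⟨y, ⟨k, fun d => cp_ne (x := y) (y := y') ?_ (e.trans e'.symm)⟩, e⟩
  rwa [show y' = y from congrArg Prod.fst (e'.trans e.symm)]

theorem pi_off {i : Bool} {x : X × Bool} : Pi (fun x => P x ∧ ¬ D x) D false x → Pi P D i x := by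
  rintro ⟨y, a, rfl⟩
  cases i
  exacts [⟨y, a.1, rfl⟩, ⟨y, a.1, (cp_off a.2).symm⟩]

/-- a face meets at most one copy of the vertices in `D` -/
theorem p2_iff (hD : ∀ x, D x → cl (O.π x) = b) (l : LT T cl m O.dbl) :
    (∀ x, Sum.inl x ∈ l.fc → P2 P D x) ↔
      (∀ x, Sum.inl x ∈ l.fc → Pi P D false x) ∨ ∀ x, Sum.inl x ∈ l.fc → Pi P D true x := by
  refine ⟨fun h => or_iff_not_imp_left.2 fun k x hx => ?_,
    fun h x hx => h.elim (fun k => pi_p2 (k x hx)) fun k => pi_p2 (k x hx)⟩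
  push Not at k
  obtain ⟨y, hy, k⟩ := k
  have k1 : y.2 ≠ false := fun e => k (pi_ff.2 ⟨(h y hy).1, e⟩)
  refine ⟨x.1, (h x hx).1, Prod.ext rfl ?_⟩
  unfold P057DP.cp
  split_ifs with d
  · have := l.2.2.1 hx hy (congrArg some ((hD _ d).trans (hD _ ((h y hy).2.resolve_left k1)).symm))
    rw [Sum.inl_injective this]
    exact (Bool.eq_true_of_not_eq_false k1).symm
  · exact ((h x hx).2.resolve_right d).symm

theorem dbl : DBL := by
  intro T s N C W X _ _ _ _ Z cl m O σ P D b n L η E h hn hσ hD hE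
  have s0 : ∀ x : X × Bool, 0 < (σ ∘ Prod.fst) x := fun x => one_pos.trans_le (hσ x.1).1
  have lo := lo_tst (cl := cl) (m := m) (O := O.dbl) h.ok h.zok s0 one_pos
  have em := emb_tst (Z := Z) (cl := cl) (m := m) (O₁ := O.dbl) (O₂ := O.dbl) (g := fl D)
    (fun _ => rfl) fl_inj (fun _ => rfl) (σ₁ := σ ∘ Prod.fst) (σ₂ := σ ∘ Prod.fst)
    (P := fun _ => True) (fun _ _ => rfl) 1
  have iv : Function.Involutive (fl D) := fun x => by unfold fl; split_ifs <;> simp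
  have f : Flip (tst cl m Z O.dbl (σ ∘ Prod.fst) 1)
      (Sum.elim (Sum.elim (fun x => D x.1) fun _ => False) fun _ => False)
      (Sum.elim (Sum.elim Prod.snd fun _ => false) fun _ => false)
      (lt (g := fl D) (fun _ => rfl) ()) (Sum.map (Sum.map (fl D) id) id) := by
    refine ⟨fun l => (lf_lf _ _ _).trans (lf_self (fun x _ => iv x) (fun _ _ => rfl) fun u => u.elim),
      ?_, fun l => ?_, ?_, ?_, fun l k => lf_self (fun x a => Prod.ext rfl (if_neg
        (k (Sum.inl (Sum.inl x)) (inl_mem_cub.2 a)))) (fun _ _ => rfl) fun u => u.elim,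
      fun l l' => em.gr l (mem_bs.2 fun _ _ => trivial) l' (mem_bs.2 fun _ _ => trivial),
      fun z l => em.ce z l (mem_bs.2 fun _ _ => trivial)⟩
    · rintro ((x | x) | x)
      exacts [congrArg (fun y => Sum.inl (Sum.inl y)) (iv x), rfl, rfl]
    · ext v
      rcases v with v | v
      · refine inl_mem_cub.trans (mem_image.trans (Iff.trans ?_ mem_image.symm))
        refine ⟨fun ⟨u, a, e⟩ => ⟨Sum.inl u, inl_mem_cub.2 a, congrArg Sum.inl e⟩, ?_⟩
        rintro ⟨u | u, a, e⟩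
        exacts [⟨u, inl_mem_cub.1 a, Sum.inl_injective e⟩, u.elim]
      · exact v.elim
    · rintro ((x | x) | x) k
      exacts [⟨k, if_pos k⟩, k.elim, k.elim]
    · rintro ((x | x) | x) k
      exacts [congrArg (fun y => Sum.inl (Sum.inl y)) (Prod.ext rfl (if_neg k)), rfl, rfl]
  have e1 : db (lt (g := fl D) (fun _ => rfl) ()) (b0 T cl m O.dbl Unit Empty (Pi P D false)) =
      b0 T cl m O.dbl Unit Empty (P2 P D) := by
    ext l
    rw [f.mem_db, mem_b0, mem_b0, mem_b0, p2_iff hD, and_or_left]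
    refine or_congr Iff.rfl (and_congr kp_lf ⟨fun k x a => pi_fl.1 (k _ (inl_lf.2 ⟨x, a, rfl⟩)),
      fun k x a => ?_⟩)
    obtain ⟨y, c, rfl⟩ := inl_lf.1 a
    exact pi_fl.2 (k y c)
  have key := f.cs lo (q := b0 T cl m O.dbl Unit Empty (Pi P D false)) (dc_ms (cq_b0 _))
    (by
      rintro l hl ((x | x) | x) a k
      exacts [(pi_ff.1 ((mem_b0.1 hl).2 x (inl_mem_cub.1 a))).2, rfl, rfl])
    (h.lf_tst (by rw [Fintype.card_prod, Fintype.card_bool]; omega) (fun x => hσ x.1) one_pos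
      (by linarith [h.L4])) h.η1 (a := fun _ => 1)
    (g := fun z => (ind (E (z ∘ lt (g := cp D false) (fun _ => rfl) ())) : ℝ)) (C := 1) (by simp)
    (fun z => by rw [Complex.norm_real]; exact abs_ind _) (fun _ _ _ => rfl)
    ((hE.comp fun l hl => lf_b0 (fun x a => ⟨x, a, rfl⟩) hl).map fun p => ((ind p : ℝ) : ℂ))
  have e2 : ∀ z : LT T cl m O.dbl → ℤ, (z ∘ lt (g := fl D) (fun _ => rfl) ()) ∘
      lt (O₁ := O) (O₂ := O.dbl) (g := cp D false) (fun _ => rfl) () =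
      z ∘ lt (g := cp D true) (fun _ => rfl) () :=
    fun z => funext fun l => congrArg z ((lf_lf _ _ _).trans
      (lf_congr (fun x _ => fl_cp x) (fun _ _ => rfl) fun u => u.elim))
  simp only [one_mul, Complex.conj_ofReal, ← Complex.ofReal_mul, e2, ← ind_and, e1, Ev_Er,
    Complex.norm_real, Real.norm_eq_abs, sq_abs] at key
  rw [← dn_emb (O₂ := O.dbl) (g := cp D false) (fun _ => rfl) (cp_inj _) (fun _ => rfl)
    (σ₁ := σ) (σ₂ := σ ∘ Prod.fst) (P₂ := Pi P D false) (fun _ _ => rfl) (fun _ => Iff.rfl)]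
  exact key.trans_eq (congrArg (2 * ·) (abs_of_nonneg dn_nonneg))

/-- the scale on the star does not matter for densities -/
theorem er_tst (f : (LT T cl m O → ℤ) → ℝ) :
    Er (tst cl m Z O σ ω) (b0 T cl m O Unit Empty P) f =
      Er (tst cl m Z O σ 1) (b0 T cl m O Unit Empty P) f := by
  have e : Emb (tst cl m Z O σ 1) (tst cl m Z O σ ω) id (b0 T cl m O Unit Empty P) :=
    ⟨Function.injective_id, fun l hl l' _ => congrArg (· * Gam T _ Empty m l l')
      ((if_neg ((mem_b0.1 hl).1.2 ())).trans (if_neg ((mem_b0.1 hl).1.2 ())).symm), fun _ _ _ => rfl⟩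
  simpa only [image_id, Function.comp_id] using e.er f

/-- the fibres over the star are rarely heavy -/
theorem heavy_st (h : Env s N m Z n L η) (hn : 2 * (Fintype.card X + 1) ≤ n) (hσ : Sb s L σ)
    (hω : 0 < ω) (hL : ω ≤ L) :
    dn cl m Z O σ P (fun z => 2 < fm (tst cl m Z O σ ω) (st T cl m O P) z) ≤ 3 * √η := by
  have s0 : ∀ x, 0 < σ x := fun x => one_pos.trans_le (hσ x).1
  have e : (b0 T cl m O Unit Empty P ∪ st T cl m O P) \ b0 T cl m O Unit Empty P = st T cl m O P :=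
    union_sdiff_cancel_left (disjoint_left.2 fun l a c => (mem_b0.1 a).1.2 () (mem_st.1 c).1)
  have := dl1 h.ok h.zok (h.al (cl := cl)) h.η1 (O := O) (K := Unit) (S := Empty)
    (by simpa using hn) (a := fun A _ => if Sum.inr () ∈ A then ω else sc σ A) (c := 0)
    (fun A _ => by split_ifs; exacts [hω, sc_pos s0 A])
    (fun l => by split_ifs; exacts [hL, hσ.sc_le' h.ok h.L4 l]) (fun _ => False) (fun _ => True)
    (fun _ => False) (q := b0 T cl m O Unit Empty P ∪ st T cl m O P)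
    (q₀ := b0 T cl m O Unit Empty P) (fun l a l' c _ => mem_bs.2 fun x d => mem_bs.1 a x (c d))
    fun l => ⟨fun a => ⟨mem_union_left _ a, fun _ _ => id, fun e c _ => (mem_b0.1 a).1.2 e c,
      fun _ _ => id⟩, fun a => mem_b0.2 ⟨⟨bs_lt l, fun e c => a.2.2.1 e c trivial⟩, mem_bs.1 a.1⟩⟩
  rw [e] at this
  exact (er_tst _).ge.trans ((lo_tst h.ok h.zok s0 hω).toTr.heavy' this)

/-- two witnesses -/
theorem nr_two (hT : T.Ok s N) (hZ : Z.Ok) (hσ : ∀ x, 0 < σ x) (hD : ∀ x, D x → cl (O.π x) = b)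
    (hω : 0 < ω) (hK : 1 ≤ K) {Θ : (LT T cl m O → ℝ) → ℝ}
    (hΘ : Fo cl m O (fun x => P x ∧ ¬ D x) Θ) {z : LT T cl m O.dbl → ℤ}
    (hz : fm (tst cl m Z O.dbl (σ ∘ Prod.fst) (36 * K ^ 2 * ω)) (st T cl m O.dbl (P2 P D)) z ≤ 2)
    (k : ∀ i, NR cl m Z O ω P Θ K (toR (z ∘ lt (g := cp D i) (fun _ => rfl) ()))) :
    NR cl m Z O ω (fun x => P x ∧ ¬ D x) Θ K (toR (z ∘ lt (g := cp D false) (fun _ => rfl) ())) := by
  have hω' : 0 < 36 * K ^ 2 * ω := by positivity
  have lo := lo_tst (cl := cl) (m := m) (O := O.dbl) hT hZ (fun _ => one_pos) hω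
  have hs : ∀ i, st T cl m O.dbl (Pi (fun x => P x ∧ ¬ D x) D false) ⊆ st T cl m O.dbl (Pi P D i) :=
    fun i l a => mem_st.2 ⟨(mem_st.1 a).1, fun x c => pi_off ((mem_st.1 a).2 x c)⟩
  have sa := fun P => sat_st (cl := cl) (m := m) (O := O.dbl) hT hZ (fun _ => one_pos) hω P
  have e : ∀ i, _ := fun i => union_sdiff_of_subset (hs i)
  have e3 : st T cl m O.dbl (Pi (fun x => P x ∧ ¬ D x) D false) ∪
      st T cl m O.dbl (Pi P D false) \ st T cl m O.dbl (Pi (fun x => P x ∧ ¬ D x) D false) ∪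
      st T cl m O.dbl (Pi P D true) \ st T cl m O.dbl (Pi (fun x => P x ∧ ¬ D x) D false) =
      st T cl m O.dbl (P2 P D) := by
    rw [e, ← union_eq_left.2 (hs false), union_assoc, e]
    ext l
    rw [mem_union, mem_st, mem_st, mem_st, p2_iff hD, and_or_left]
  have nr : ∀ i, NL (tst cl m Z O.dbl (fun _ => 1) ω) (st T cl m O.dbl (Pi P D i))
      (fun x => Θ (x ∘ lt (g := cp D false) (fun _ => rfl) ())) K (toR z) := fun i =>
    NL.congr ((nr_emb (O₂ := O.dbl) (g := cp D i) (fun _ => rfl) (cp_inj i) (fun _ => rfl)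
      (P₂ := Pi P D i) fun _ => Iff.rfl).2 (k i)) fun x => hΘ.dp _ _ fun l a =>
        congrArg (mix _ x (toR z)) (lf_congr (fun v c => by
          cases i
          exacts [rfl, (cp_off (mem_bs.1 a v c).2).symm]) (fun _ _ => rfl) fun u => u.elim)
  refine (nr_emb (O₂ := O.dbl) (g := cp D false) (fun _ => rfl) (cp_inj _) (fun _ => rfl)
    (P₂ := Pi (fun x => P x ∧ ¬ D x) D false) (y := toR z) fun _ => Iff.rfl).1 ?_
  refine two _ _ _ _ _ _ _ z _ K lo.toTr
    (lo_tst hT hZ (σ := σ ∘ Prod.fst) (fun x => hσ x.1) hω').toTr rfl disjoint_sdiff disjoint_sdiff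
    (disjoint_left.2 fun l a c => (mem_sdiff.1 a).2 (mem_st.2 ⟨(mem_st.1 (mem_sdiff.1 a).1).1,
      fun x d => pi_both ((mem_st.1 (mem_sdiff.1 a).1).2 x d) ((mem_st.1 (mem_sdiff.1 c).1).2 x d)⟩))
    (sa _) (Sat.sdiff lo.pd.1 (sa (Pi P D false)) (sa _)) (Sat.sdiff lo.pd.1 (sa (Pi P D true)) (sa _))
    ?_ ?_ (fun x x' a => dp_lt (P₂ := Pi (fun x => P x ∧ ¬ D x) D false)
      (fun v c => ⟨v, c, rfl⟩) hΘ.dp x x' fun l c => a l fun d => ?_) ?_ (by linarith) ?_ ?_ ?_ ?_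
  · rw [e]
    exact fun l a x x' c => p_tst hT hZ fun l' d => c l' fun f => (mem_sdiff.1 f).2
      (mem_st.2 ⟨(mem_st.1 (mem_sdiff.1 f).1).1, fun v g =>
        pi_both ((mem_st.1 a).2 v (d g)) ((mem_st.1 (mem_sdiff.1 f).1).2 v g)⟩)
  · rw [e]
    exact fun l a x x' c => p_tst hT hZ fun l' d => c l' fun f => (mem_sdiff.1 f).2
      (mem_st.2 ⟨(mem_st.1 (mem_sdiff.1 f).1).1, fun v g =>
        pi_both ((mem_st.1 (mem_sdiff.1 f).1).2 v g) ((mem_st.1 a).2 v (d g))⟩)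
  · rcases mem_union.1 d with d | d <;>
      exact (mem_sdiff.1 d).2 (mem_st.2 ⟨(mem_st.1 (mem_sdiff.1 d).1).1, mem_bs.1 c⟩)
  · rw [e3]; exact lin_tst hT hZ _ _ _ _
  · rw [e3]
    intro v
    have a1 := qq_blk_mono hT.pd (a := fun A _ => if Sum.inr () ∈ A then ω else sc (fun _ => 1) A)
      (b := fun _ _ => ω) v fun l _ => (if_pos (mem_st.1 l.2).1).le
    have a2 := qq_blk_mono hT.pd (a := fun _ _ => 36 * K ^ 2 * ω) (b := fun A _ =>
      if Sum.inr () ∈ A then 36 * K ^ 2 * ω else sc (σ ∘ Prod.fst) A) v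
      fun l _ => (if_pos (mem_st.1 l.2).1).ge
    rw [qq_blk_const] at a1 a2
    exact (mul_le_mul_of_nonneg_left a1 (by positivity)).trans ((mul_assoc _ _ _).ge.trans a2)
  · rwa [e3]
  · rw [e]; exact nr false
  · rw [e]; exact nr true

theorem wit : WIT := by
  intro T s N C W X κ _ _ _ _ Z cl m O σ P D b n L η ω K E Θ h hn hσ hD hω hK hL hE hΘ
  have s0 : ∀ x, 0 < σ x := fun x => one_pos.trans_le (hσ x).1
  have hn' : 2 * (Fintype.card (X × Bool) + 1) ≤ n := by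
    rw [Fintype.card_prod, Fintype.card_bool]; omega
  have dp : ∀ {P' : X → Prop}, (∀ x, P x ∧ ¬ D x → P' x) → Dp (b0 T cl m O Unit Empty P')
      fun z => E z ∧ ∀ k, NR cl m Z O ω P' (Θ k) K (toR z) := fun {P'} hP z z' a => by
    beta_reduce
    rw [hE z z' fun l c => a l (b0_mono hP c)]
    refine congrArg _ (forall_congr fun k => NR.dp h.ok h.zok ((hΘ k).dp.mono fun l c =>
      mem_bs.2 fun x d => hP x (mem_bs.1 c x d)) _ _ fun l c => congrArg Int.cast (a l c))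
  have h1 := dbl T s N C W X Z cl m O σ P D b n L η _ h (by omega) hσ hD (dp fun _ => And.left)
  have h2 := heavy_st (cl := cl) (O := O.dbl) (P := P2 P D) h hn' (σ := σ ∘ Prod.fst)
    (fun x => hσ x.1) (by positivity) hL
  have h3 := sub_le_iff_le_add'.1 (abs_le.1 (dn_del (O := O.dbl) (P := P2 P D) h (by omega)
    (σ := σ ∘ Prod.fst) (fun x => hσ x.1) (P' := Pi (fun x => P x ∧ ¬ D x) D false)
    (fun x a => pi_p2 (i := false) (pi_off a))
    ((dp fun _ => id).comp (e := lt (O₂ := O.dbl) (g := cp D false) (fun _ => rfl) ())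
      fun l a => lf_b0 (fun x c => ⟨x, c, rfl⟩) a))).2
  rw [dn_emb (O₂ := O.dbl) (g := cp D false) (fun _ => rfl) (cp_inj _) (fun _ => rfl) (σ₁ := σ)
    (σ₂ := σ ∘ Prod.fst) (P₂ := Pi (fun x => P x ∧ ¬ D x) D false) (fun _ _ => rfl)
    (fun _ => Iff.rfl) fun z => E z ∧ ∀ k, NR cl m Z O ω (fun x => P x ∧ ¬ D x) (Θ k) K (toR z)] at h3
  have s1 : ∀ x : X × Bool, 0 < (σ ∘ Prod.fst) x := fun x => s0 x.1
  refine h1.trans ((mul_le_mul_of_nonneg_left ((dn_and h.ok h.zok s1 _ fun z =>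
    2 < fm (tst cl m Z O.dbl (σ ∘ Prod.fst) (36 * K ^ 2 * ω)) (st T cl m O.dbl (P2 P D)) z).trans
      (add_le_add ((dn_mono h.ok h.zok s1 fun _ => And.right).trans h2)
        ((dn_mono h.ok h.zok s1 fun z a => ?_).trans h3))) zero_le_two).trans_eq (by ring))
  exact ⟨a.1.1.1, fun k => nr_two h.ok h.zok s0 hD hω hK (hΘ k) (not_lt.1 a.2) fun i => by
    cases i
    exacts [a.1.1.2 k, a.1.2.2 k]⟩

end

end Vale.Agent.P057NL
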